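/-!
# Row 298 (Barendregt-Geuvers-Klop conjecture): plan of the proof

* `Bridge`: reduce to finitely many sorts and to terms with typed atoms (`Syn`, `Typ`).
* `Lev`: the level of a type is the set of sorts of its normal form; graph on levels (`pos`, `neg`, `cum`).
* `Ann`, `Klop`: memo calculus with annotated applications; weak normalisation there gives strong normalisation.
* `Cand`, `FL`: cuts are eliminated component by component (downstream first) by one fundamental lemma against `Sem`.
* A component `d` has a `Sem` because
  - it has no odd cycle (`P1`, Knaster-Tarski), or
  - it is unary (`P2`, the leaf candidate is extremal), or
  - no impredicative structural component has walks of both parities to a quantified level (`VM`, `VDom`, `Val`, `ValB`: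
    Luo-style sets for predicative kinds, full functions / functions of small support for the two polarities), or
  - the remaining case is impossible (`X/*`): a coloured copy of the system has a consistent base context, a Henkin chain gives a
    classical term model, odd structural walks give quantifiable power sets, and the Burali-Forti paradox can be run.
* `Main`: assembly.
-/
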